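import Vale.Agent.P343.Rep

/-! The support of a lift of the identity plus one edge doubles every 19 points. -/

namespace Vale.Agent.P343

open Set

def Bin.I (N : ℕ) : Bin := ⟨fun x y => x = y ∧ x < N⟩

def Bin.IE (N i j : ℕ) : Bin := ⟨fun x y => (x = y ∧ x < N) ∨ (x = i ∧ y = j)⟩

def Bin.bip (c : ℕ) (S : ℕ → Prop) : Bin :=
  ⟨fun x y => (x = y ∧ x < c + 18) ∨ ∃ u, S u ∧ u < 64 ∧ x = c + 2 + u / 8 ∧ y = c + 10 + u % 8⟩

namespace Bin

theorem I_mul_I (N M : ℕ) : I N * I M = I (min N M) := by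
  ext x y
  simp only [mul_r, I]
  constructor
  · rintro ⟨z, h1, h2⟩; omega
  · rintro h; exact ⟨x, by omega, by omega⟩

theorem bip_mul (c : ℕ) (S S' : ℕ → Prop) :
    bip c S * bip c S' = bip c (fun u => S u ∨ S' u) := by
  ext x y
  simp only [mul_r, bip]
  constructor
  · rintro ⟨z, h1 | ⟨u, h1, h2⟩, h3 | ⟨u', h3, h4⟩⟩
    · left; omega
    · right; exact ⟨u', Or.inr h3, by omega⟩
    · right; exact ⟨u, Or.inl h1, by omega⟩
    · omega
  · rintro (h | ⟨u, h1 | h1, h2⟩)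
    · exact ⟨x, Or.inl (by omega), Or.inl h⟩
    · exact ⟨y, Or.inr ⟨u, h1, h2⟩, Or.inl (by omega)⟩
    · exact ⟨x, Or.inl (by omega), Or.inr ⟨u, h1, h2⟩⟩

theorem bip_congr (c : ℕ) {S S' : ℕ → Prop} (h : ∀ u, S u ↔ S' u) : bip c S = bip c S' := by
  rw [show S = S' from funext fun u => propext (h u)]

theorem bip_I_bip (c : ℕ) (S : ℕ → Prop) : bip c S * I (c + 2) * bip c S = I (c + 2) := by
  ext x y
  simp only [mul_r, bip, I]
  constructor
  · rintro ⟨z, ⟨w, h1 | ⟨u, -, h2⟩, h0⟩, h3 | ⟨u', -, h4⟩⟩ <;> omega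
  · rintro h
    exact ⟨x, ⟨x, Or.inl (by omega), by omega⟩, Or.inl (by omega)⟩

theorem vis_no (c : ℕ) (S : ℕ → Prop) (t : ℕ) (ht : t < 64) (hS : ¬ S t) :
    I (c + 2) * IE (c + 2) c (c + 2 + t / 8) * bip c S * IE (c + 2) (c + 10 + t % 8) (c + 1) *
      I (c + 2) = I (c + 2) := by
  ext x y
  simp only [mul_r, bip, I, IE]
  constructor
  · rintro ⟨z, ⟨w, ⟨v, ⟨s, h0, h1⟩, h2 | ⟨u, h2, h3⟩⟩, h4⟩, h5⟩
    · omega
    · have : u = t := by omega
      exact absurd (this ▸ h2) hS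
  · rintro h
    exact ⟨x, ⟨x, ⟨x, ⟨x, by omega, by omega⟩, Or.inl (by omega)⟩, by omega⟩, by omega⟩

theorem vis_yes (c : ℕ) (S : ℕ → Prop) (t : ℕ) (ht : t < 64) (hS : S t) :
    I (c + 2) * IE (c + 2) c (c + 2 + t / 8) * bip c S * IE (c + 2) (c + 10 + t % 8) (c + 1) *
      I (c + 2) = IE (c + 2) c (c + 1) := by
  ext x y
  simp only [mul_r, bip, I, IE]
  constructor
  · rintro ⟨z, ⟨w, ⟨v, ⟨s, h0, h1⟩, h2 | ⟨u, h2, h3⟩⟩, h4⟩, h5⟩ <;> omega
  · rintro (h | h)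
    · exact ⟨x, ⟨x, ⟨x, ⟨x, by omega, by omega⟩, Or.inl (by omega)⟩, by omega⟩, by omega⟩
    · exact ⟨c + 1, ⟨c + 10 + t % 8, ⟨c + 2 + t / 8, ⟨c, by omega, by omega⟩,
        Or.inr ⟨t, hS, by omega⟩⟩, by omega⟩, by omega⟩

theorem lay_no (c p q : ℕ) :
    I (c + 19) * IE (c + 19) p (c + 19) * I (c + 21) * IE (c + 19) (c + 20) q * I (c + 19) =
      I (c + 19) := by
  ext x y
  simp only [mul_r, I, IE]
  constructor
  · rintro ⟨z, ⟨w, ⟨v, ⟨s, h0, h1⟩, h2⟩, h4⟩, h5⟩; omega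
  · rintro h
    exact ⟨x, ⟨x, ⟨x, ⟨x, by omega, by omega⟩, by omega⟩, by omega⟩, by omega⟩

theorem lay_yes (c p q : ℕ) (hp : p < c + 19) (hq : q < c + 19) :
    I (c + 19) * IE (c + 19) p (c + 19) * IE (c + 21) (c + 19) (c + 20) *
      IE (c + 19) (c + 20) q * I (c + 19) = IE (c + 19) p q := by
  ext x y
  simp only [mul_r, I, IE]
  constructor
  · rintro ⟨z, ⟨w, ⟨v, ⟨s, h0, h1⟩, h2⟩, h4⟩, h5⟩; omega
  · rintro (h | h)
    · exact ⟨x, ⟨x, ⟨x, ⟨x, by omega, by omega⟩, by omega⟩, by omega⟩, by omega⟩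
    · exact ⟨q, ⟨c + 20, ⟨c + 19, ⟨p, by omega, by omega⟩, by omega⟩, by omega⟩, by omega⟩

theorem I_bip_I (c : ℕ) :
    I (c + 19) * bip c (fun u => u < 0) * I (c + 19) = bip c (fun u => u < 0) := by
  ext x y
  simp only [mul_r, I, bip]
  constructor
  · rintro ⟨z, ⟨w, h0, h2 | ⟨u, h2, h3⟩⟩, h4⟩ <;> omega
  · rintro (h | ⟨u, h, -⟩)
    · exact ⟨x, ⟨x, by omega, Or.inl (by omega)⟩, by omega⟩
    · omega

theorem prod_lay (c u : ℕ) (hu : u < 64) :
    bip c (fun u => u < 0) * (IE (c + 19) (c + 2 + u / 8) (c + 18) *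
      IE (c + 19) (c + 18) (c + 2 + (8 + u % 8))) * bip c (fun u => u < 0) =
      bip c (fun v => v < 0 ∨ v = u) := by
  ext x y
  simp only [mul_r, IE, bip]
  constructor
  · rintro ⟨z, ⟨w, h0 | ⟨u, h0, -⟩, v, h1, h2⟩, h4 | ⟨u, h4, -⟩⟩
    · by_cases hxy : x = y
      · left; omega
      · right; exact ⟨u, Or.inr rfl, by omega⟩
    all_goals omega
  · rintro (h | ⟨v, h, h'⟩)
    · exact ⟨x, ⟨x, Or.inl (by omega), x, by omega, by omega⟩, Or.inl (by omega)⟩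
    · exact ⟨y, ⟨x, Or.inl (by omega), c + 18, by omega, by omega⟩, Or.inl (by omega)⟩

end Bin

/-- The lower bound at level `k`. -/
def Claim (k : ℕ) : Prop :=
  ∀ (P : Type) [Finite P] (ρ : Rep P (Bin.I (19 * k + 2))) (x : Dia P P) (V : Set P),
    ρ.R x (Bin.IE (19 * k + 2) (19 * k) (19 * k + 1)) → x.Supp V → 2 ^ k ≤ V.ncard

theorem claim_zero : Claim 0 := by
  intro P _ ρ x V hx hV
  rw [pow_zero]
  by_contra hn
  have : V = ∅ := by
    rw [← Set.ncard_eq_zero]; omega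
  subst this
  rw [hV.eq_one] at hx
  have := congrFun (congrFun (congrArg Bin.r (ρ.func hx ρ.one)) 0) 1
  simp [Bin.IE, Bin.I] at this

theorem inner (k : ℕ) (hk : Claim k) (d : ℕ) : ∀ t, t + d = 64 →
    ∀ (P : Type) [Finite P] (ρ : Rep P (Bin.bip (19 * k) (fun u => u < t))) (V : Set P)
      (w : ℕ → Dia P P),
      (∀ u, t ≤ u → u < 64 →
        ρ.R (w u) (Bin.bip (19 * k) (fun v => v < t ∨ v = u)) ∧ (w u).Supp V) →
      d * 2 ^ k ≤ 2 * V.ncard := by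
  induction d with
  | zero => intros; simp
  | succ d ih =>
    intro t ht P _ ρ V w hw
    obtain ⟨h1, h2⟩ := hw t le_rfl (by omega)
    have e1 : Bin.bip (19 * k) (fun v => v < t ∨ v = t) = Bin.bip (19 * k) (fun v => v < t + 1) :=
      Bin.bip_congr _ (fun u => by omega)
    rw [e1] at h1
    obtain ⟨m, hm⟩ := exists_idem_pow (w t)
    have he : ρ.R (w t ^ (m + 1)) (Bin.bip (19 * k) (fun v => v < t + 1)) := by
      refine ρ.pow h1 ?_ m
      rw [Bin.bip_mul]; exact Bin.bip_congr _ (fun u => by omega)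
    obtain ⟨P', hP', a, b, ρ', hab, hba, h3, -⟩ := ρ.corner he hm
    obtain ⟨τ, hτ1, -, hτ3⟩ := Dia.transport b a hba
    obtain ⟨U, hU1, hU2⟩ := hτ3 V (hab ▸ h2.pow (m + 1))
    rw [hab] at hU1
    have hvis : 2 ^ k ≤ U.ncard := by
      obtain ⟨P1, hP1, ρ1, h4⟩ := ρ.transfer (g := Bin.I (19 * k + 2)) (Bin.bip_I_bip _ _)
        (by rw [Bin.I_mul_I, min_self])
      obtain ⟨x', V', h5, h6, h7⟩ := h4 _ _
        (Bin.vis_no (19 * k) (fun u => u < t) t (by omega) (lt_irrefl t)) _ _ U he hU1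
      rw [Bin.vis_yes (19 * k) _ t (by omega) (by omega)] at h5
      exact (hk P1 ρ1 x' V' h5 h6).trans h7
    have := ih (t + 1) (by omega) P' ρ' (τ V) (fun u => b.comp ((w u).comp a)) (by
      intro u hu hu'
      obtain ⟨h4, h5⟩ := hw u (by omega) hu'
      refine ⟨?_, hτ1 V _ h5⟩
      have := h3 _ _ h4
      rw [Bin.bip_mul, Bin.bip_mul] at this
      rwa [Bin.bip_congr (19 * k) (S := fun v => (v < t + 1 ∨ v < t ∨ v = u) ∨ v < t + 1)
        (S' := fun v => v < t + 1 ∨ v = u) (fun v => by omega)] at this)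
    rw [add_mul]
    omega

theorem ncard_biUnion_le {P : Type} [Finite P] (s : ℕ) (V : ℕ → Set P) (n : ℕ)
    (h : ∀ i, i < n → (V i).ncard ≤ s) : (⋃ i, ⋃ (_ : i < n), V i).ncard ≤ n * s := by
  induction n with
  | zero => simp
  | succ n ih =>
    have e : (⋃ i, ⋃ (_ : i < n + 1), V i) = (⋃ i, ⋃ (_ : i < n), V i) ∪ V n := by
      ext p
      simp only [mem_iUnion, mem_union, exists_prop]
      constructor
      · rintro ⟨i, hi, hp⟩
        rcases Nat.lt_succ_iff_lt_or_eq.1 hi with h1 | rfl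
        · exact Or.inl ⟨i, h1, hp⟩
        · exact Or.inr hp
      · rintro (⟨i, hi, hp⟩ | hp)
        · exact ⟨i, by omega, hp⟩
        · exact ⟨n, by omega, hp⟩
    rw [e]
    have h1 := Set.ncard_union_le (⋃ i, ⋃ (_ : i < n), V i) (V n)
    have h2 := ih (fun i hi => h i (by omega))
    have h3 := h n (by omega)
    rw [add_mul]
    omega

theorem claim_succ (k : ℕ) (hk : Claim k) : Claim (k + 1) := by
  intro P _ ρ x V hx hV
  have e1 : 19 * (k + 1) + 2 = 19 * k + 21 := by ring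
  have e2 : 19 * (k + 1) = 19 * k + 19 := by ring
  have e3 : 19 * (k + 1) + 1 = 19 * k + 20 := by ring
  rw [e3] at hx
  revert ρ
  rw [e1, e2]
  intro ρ hx
  obtain ⟨P1, hP1, ρ1, h1⟩ := ρ.transfer (g := Bin.I (19 * k + 19))
    (by rw [Bin.I_mul_I, Bin.I_mul_I]; congr 1; omega) (by rw [Bin.I_mul_I, min_self])
  have h2 : ∀ p q, p < 19 * k + 19 → q < 19 * k + 19 →
      ∃ x' V', ρ1.R x' (Bin.IE (19 * k + 19) p q) ∧ x'.Supp V' ∧ V'.ncard ≤ V.ncard := by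
    intro p q hp hq
    have := h1 _ _ (Bin.lay_no (19 * k) p q) x _ V hx hV
    rwa [Bin.lay_yes (19 * k) p q hp hq] at this
  have h3 : ∀ i : ℕ, ∃ x' V', i < 16 → ρ1.R x'
      (if i < 8 then Bin.IE (19 * k + 19) (19 * k + 2 + i) (19 * k + 18)
        else Bin.IE (19 * k + 19) (19 * k + 18) (19 * k + 2 + i)) ∧
      Dia.Supp x' V' ∧ V'.ncard ≤ V.ncard := by
    intro i
    by_cases hi : i < 16
    · split_ifs with hi'
      · obtain ⟨x', V', h⟩ := h2 (19 * k + 2 + i) (19 * k + 18) (by omega) (by omega)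
        exact ⟨x', V', fun _ => h⟩
      · obtain ⟨x', V', h⟩ := h2 (19 * k + 18) (19 * k + 2 + i) (by omega) (by omega)
        exact ⟨x', V', fun _ => h⟩
    · exact ⟨1, ∅, fun h => absurd h hi⟩
  choose l W hl using h3
  have hW := ncard_biUnion_le V.ncard W 16 (fun i hi => (hl i hi).2.2)
  set W0 := ⋃ i, ⋃ (_ : i < 16), W i with hW0
  have hsub : ∀ i, i < 16 → W i ⊆ W0 := fun i hi p hp =>
    mem_iUnion.2 ⟨i, mem_iUnion.2 ⟨hi, hp⟩⟩
  obtain ⟨y, hy, hyy, -⟩ := ρ1.exists_min_idem (g := Bin.bip (19 * k) (fun u => u < 0))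
    (Bin.I_bip_I _) (by rw [Bin.bip_mul]; exact Bin.bip_congr _ (fun u => by omega))
  obtain ⟨P2, hP2, a, b, ρ2, hab, hba, h4, -⟩ := ρ1.corner hy hyy
  obtain ⟨τ, hτ1, hτ2, -⟩ := Dia.transport b a hba
  have := inner k hk 64 0 rfl P2 ρ2 (τ W0)
    (fun u => b.comp ((l (u / 8) * l (8 + u % 8)).comp a)) (by
      intro u _ hu
      obtain ⟨h5, h6, -⟩ := hl (u / 8) (by omega)
      obtain ⟨h7, h8, -⟩ := hl (8 + u % 8) (by omega)
      rw [if_pos (by omega)] at h5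
      rw [if_neg (by omega)] at h7
      refine ⟨?_, hτ1 _ _ ((h6.mono (hsub _ (by omega))).mul (h8.mono (hsub _ (by omega))))⟩
      have := h4 _ _ (ρ1.mul h5 h7)
      rwa [Bin.prod_lay _ _ hu] at this)
  have h9 := hτ2 W0
  rw [pow_succ]
  omega

theorem claim (k : ℕ) : Claim k := by
  induction k with
  | zero => exact claim_zero
  | succ k ih => exact claim_succ k ih

/-- Every representation of the relations on `h` points has exponentially many points. -/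
theorem Rep.card_ge {P : Type} [Finite P] {h : ℕ} (hh : 2 ≤ h) (ρ : Rep P (Bin.I h)) :
    2 ^ ((h - 2) / 19) ≤ Nat.card P := by
  set k := (h - 2) / 19 with hk
  have hle : 19 * k + 2 ≤ h := by omega
  obtain ⟨P1, hP1, ρ1, h1⟩ := ρ.transfer (g := Bin.I (19 * k + 2))
    (by rw [Bin.I_mul_I, Bin.I_mul_I]; congr 1; omega) (by rw [Bin.I_mul_I, min_self])
  obtain ⟨x, hx⟩ := ρ.total (Bin.IE (19 * k + 2) (19 * k) (19 * k + 1))
  obtain ⟨x', V', h2, h3, h4⟩ := h1 (Bin.I h) (Bin.I h)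
    (by simp only [Bin.I_mul_I]; congr 1; omega) x _ univ hx x.supp_univ
  have e : Bin.I (19 * k + 2) * Bin.I h *
      (Bin.I h * Bin.IE (19 * k + 2) (19 * k) (19 * k + 1) * Bin.I h) * Bin.I h *
      Bin.I (19 * k + 2) = Bin.IE (19 * k + 2) (19 * k) (19 * k + 1) := by
    ext x y
    simp only [Bin.mul_r, Bin.I, Bin.IE]
    constructor
    · rintro ⟨z, ⟨w, ⟨v, ⟨s, h0, h1⟩, u, ⟨r, h2, h3⟩, h4⟩, h5⟩, h6⟩; omega
    · rintro h
      exact ⟨y, ⟨y, ⟨x, ⟨x, by omega, by omega⟩, y, ⟨x, by omega, h⟩, by omega⟩, by omega⟩,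
        by omega⟩
  rw [e] at h2
  have := (claim k P1 ρ1 x' V' h2 h3).trans h4
  rwa [Set.ncard_univ] at this

end Vale.Agent.P343
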