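import Vale.Agent.P343.Defs
import Vale.Agent.P343.Main

/-! From deterministic two-way automata to diagrams. -/

namespace Vale.Agent.P343

open Set

variable {A : Type} {m : ℕ}

/-- Select the colouring of the cell reached by a move. -/
def Move.sel {α : Type} (l c r : α) : Move → α
  | Move.left => l
  | Move.right => r
  | Move.stay => c

namespace TwoNFA

def Cell (D : TwoNFA A m) (s : TapeSym A) (l c r : Fin m → Prop) (z : Prop) : Prop :=
  ∀ q, (q ∈ D.acc → (c q ↔ z)) ∧
    (q ∉ D.acc → ∀ q' d, D.trans q s q' d → (c q ↔ Move.sel l c r d q'))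

def Glob (D : TwoNFA A m) (w : List A) (K : ℕ → Fin m → Prop) : Prop :=
  ∀ i, i ≤ w.length + 1 → D.Cell (tape w i) (K (i - 1)) (K i) (K (i + 1)) True

theorem sel_target (K : ℕ → Fin m → Prop) (i : ℕ) (d : Move) :
    Move.sel (K (i - 1)) (K i) (K (i + 1)) d = K (d.target i) := by
  cases d <;> rfl

theorem step_le (D : TwoNFA A m) (w : List A) {c c' : ℕ × Fin m} (h : D.Step w c c')
    (hc : c.1 ≤ w.length + 1) : c'.1 ≤ w.length + 1 := by
  obtain ⟨d, h1, h2⟩ := h
  cases d
  · simp only [Move.target] at h2; omega
  · simp only [Move.target] at h2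
    by_contra hn
    have e : c.1 = w.length + 1 := by omega
    rw [e] at h1
    simp only [tape, lt_irrefl, dite_false] at h1
    exact D.no_right _ _ h1
  · simp only [Move.target] at h2; omega

theorem mem_lang_iff_glob (D : TwoNFA A m) (hD : D.IsDet) (w : List A) :
    w ∈ D.lang ↔ ∀ K, D.Glob w K → K 0 D.init := by
  constructor
  · rintro ⟨c, h1, h2⟩ K hK
    have : ∀ x : ℕ × Fin m, Relation.ReflTransGen (D.Step w) x c → x.1 ≤ w.length + 1 →
        K x.1 x.2 := by
      intro x hx
      induction hx using Relation.ReflTransGen.head_induction_on with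
      | refl => intro hc; exact ((hK _ hc _).1 h2).2 trivial
      | @head x y hxy _ ih =>
        intro hc
        by_cases hq : x.2 ∈ D.acc
        · exact ((hK _ hc _).1 hq).2 trivial
        · have h3 := ih (D.step_le w hxy hc)
          obtain ⟨d, h4, h5⟩ := hxy
          have := (hK _ hc _).2 hq _ d h4
          rw [sel_target, ← h5] at this
          exact this.2 h3
    exact this _ h1 (by simp)
  · intro h
    refine h (fun i q => ∃ c, Relation.ReflTransGen (D.Step w) (i, q) c ∧ c.2 ∈ D.acc) ?_
    intro i _ q
    refine ⟨fun hq => ⟨fun _ => trivial, fun _ => ⟨(i, q), .refl, hq⟩⟩, fun hq q' d ht => ?_⟩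
    rw [sel_target (fun i q => ∃ c, Relation.ReflTransGen (D.Step w) (i, q) c ∧ c.2 ∈ D.acc)]
    constructor
    · rintro ⟨c, h1, h2⟩
      rcases h1.cases_head with rfl | ⟨y, ⟨d', h3, h4⟩, h5⟩
      · exact absurd h2 hq
      · obtain ⟨e1, e2⟩ := hD _ _ _ _ _ _ ht h3
        subst e2
        refine ⟨c, ?_, h2⟩
        have : y = (d.target i, q') := Prod.ext h4 e1.symm
        rwa [this] at h5
    · rintro ⟨c, h1, h2⟩
      exact ⟨c, .head ⟨d, ht, rfl⟩ h1, h2⟩

/-- Boundary points. -/
abbrev Pt (m : ℕ) : Type := Option (Fin m × Bool)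

def lf (f : Set (Pt m)) : Fin m → Prop := fun q => some (q, false) ∈ f
def rt (f : Set (Pt m)) : Fin m → Prop := fun q => some (q, true) ∈ f

def letterDia (D : TwoNFA A m) (a : A) : Dia (Pt m) (Pt m) where
  rel f g := (none ∈ f ↔ none ∈ g) ∧ rt f = lf g ∧
    D.Cell (TapeSym.letter a) (lf f) (rt f) (rt g) (none ∈ f)
  compl := by
    rintro f g ⟨h1, h2, h3⟩
    refine ⟨not_congr h1, ?_, fun q => ⟨fun hq => not_congr ((h3 q).1 hq), fun hq q' d ht => ?_⟩⟩
    · funext q
      exact congrArg Not (congrFun h2 q)
    · have := not_congr ((h3 q).2 hq q' d ht)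
      cases d <;> exact this
  iInter := by
    intro ι f g H
    refine ⟨?_, ?_, fun q => ⟨fun hq => ?_, fun hq q' d ht => ?_⟩⟩
    · simp only [mem_iInter]
      exact forall_congr' fun i => (H i).1
    · funext q
      simp only [rt, lf, mem_iInter]
      exact propext (forall_congr' fun i => iff_of_eq (congrFun (H i).2.1 q))
    · simp only [rt, mem_iInter]
      exact forall_congr' fun i => ((H i).2.2 q).1 hq
    · have := forall_congr' fun i => ((H i).2.2 q).2 hq q' d ht
      cases d <;> simp only [rt, lf, Move.sel, mem_iInter] <;> exact this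

def wordDia (D : TwoNFA A m) (w : List A) : Dia (Pt m) (Pt m) := (w.map D.letterDia).prod

theorem wordDia_append (D : TwoNFA A m) (u v : List A) :
    D.wordDia (u ++ v) = D.wordDia u * D.wordDia v := by
  simp [wordDia]

theorem wordDia_rel (D : TwoNFA A m) (w : List A) (f g : Set (Pt m)) :
    (D.wordDia w).rel f g ↔ ∃ c : ℕ → Set (Pt m), c 0 = f ∧ c w.length = g ∧
      ∀ i (h : i < w.length), (D.letterDia w[i]).rel (c i) (c (i + 1)) := by
  induction w generalizing f with
  | nil =>
    constructor
    · rintro (rfl : f = g)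
      exact ⟨fun _ => f, rfl, rfl, fun i h => absurd h (by simp)⟩
    · rintro ⟨c, rfl, rfl, -⟩
      rfl
  | cons a w ih =>
    have e : D.wordDia (a :: w) = (D.letterDia a).comp (D.wordDia w) := by
      simp [wordDia, Dia.mul_def]
    rw [e]
    constructor
    · rintro ⟨k, h1, h2⟩
      obtain ⟨c, h3, h4, h5⟩ := (ih k).1 h2
      refine ⟨fun i => Nat.casesOn i f c, rfl, h4, fun i h => ?_⟩
      cases i with
      | zero => simpa [h3] using h1
      | succ i => exact h5 i (by simpa using h)
    · rintro ⟨c, h3, h4, h5⟩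
      refine ⟨c 1, ?_, (ih _).2 ⟨fun i => c (i + 1), rfl, h4, fun i h => ?_⟩⟩
      · have := h5 0 (by simp)
        rw [h3] at this
        exact this
      · exact h5 (i + 1) (by simpa using h)

theorem cell_lend (D : TwoNFA A m) {l l' c r : Fin m → Prop} {z : Prop}
    (h : D.Cell TapeSym.lend l c r z) : D.Cell TapeSym.lend l' c r z := by
  refine fun q => ⟨(h q).1, fun hq q' d ht => ?_⟩
  have := (h q).2 hq q' d ht
  cases d
  · exact absurd ht (D.no_left _ _)
  · exact this
  · exact this

theorem cell_rend (D : TwoNFA A m) {l c r r' : Fin m → Prop} {z : Prop}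
    (h : D.Cell TapeSym.rend l c r z) : D.Cell TapeSym.rend l c r' z := by
  refine fun q => ⟨(h q).1, fun hq q' d ht => ?_⟩
  have := (h q).2 hq q' d ht
  cases d
  · exact this
  · exact absurd ht (D.no_right _ _)
  · exact this

theorem mem_lang_iff_dia (D : TwoNFA A m) (hD : D.IsDet) (w : List A) :
    w ∈ D.lang ↔ ∀ f g, D.Cell TapeSym.lend (lf f) (lf f) (rt f) True →
      (D.wordDia w).rel f g → D.Cell TapeSym.rend (lf g) (rt g) (rt g) True →
      none ∈ f → lf f D.init := by
  rw [D.mem_lang_iff_glob hD]
  constructor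
  · intro h f g h1 h2 h3 h4
    obtain ⟨c, rfl, rfl, h5⟩ := (D.wordDia_rel w f g).1 h2
    have hn : ∀ i, i ≤ w.length → none ∈ c i := by
      intro i
      induction i with
      | zero => intro _; exact h4
      | succ i ih => intro hi; exact (h5 i hi).1.1 (ih (by omega))
    let K : ℕ → Fin m → Prop := fun i => Nat.casesOn i (lf (c 0)) (fun j => rt (c j))
    have hK : ∀ i, i ≤ w.length → K i = lf (c i) := by
      intro i hi
      cases i with
      | zero => rfl
      | succ i => exact (h5 i hi).2.1
    refine h K (fun i hi => ?_)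
    cases i with
    | zero => exact h1
    | succ i =>
      rw [Nat.add_sub_cancel, hK i (by omega)]
      by_cases hi' : i < w.length
      · have := (h5 i hi').2.2
        simp only [tape, hi', dite_true]
        rwa [eq_true (hn i hi'.le)] at this
      · have e : i = w.length := by omega
        subst e
        simp only [tape, lt_irrefl, dite_false]
        exact D.cell_rend h3
  · intro h K hK
    let c : ℕ → Set (Pt m) := fun i => {p | match p with
      | none => True
      | some (q, false) => K i q
      | some (q, true) => K (i + 1) q}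
    refine h (c 0) (c w.length) (hK 0 (by omega)) ((D.wordDia_rel w _ _).2 ⟨c, rfl, rfl, ?_⟩) ?_
      trivial
    · intro i hi
      refine ⟨Iff.rfl, rfl, ?_⟩
      have := hK (i + 1) (by omega)
      simp only [tape, hi, dite_true] at this
      exact this
    · have := hK (w.length + 1) le_rfl
      simp only [tape, lt_irrefl, dite_false] at this
      exact D.cell_rend this

theorem lang_congr (D : TwoNFA A m) (hD : D.IsDet) {w w' : List A}
    (h : D.wordDia w = D.wordDia w') : w ∈ D.lang ↔ w' ∈ D.lang := by
  rw [D.mem_lang_iff_dia hD, D.mem_lang_iff_dia hD, h]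

end TwoNFA

end Vale.Agent.P343
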