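import Mathlib

/-! Two-way finite automata with endmarkers, following the problem statement. -/

namespace Vale.Agent.P343

/-- Tape symbols: the left endmarker, the right endmarker, or an input letter. -/
inductive TapeSym (A : Type) : Type
  | lend : TapeSym A
  | rend : TapeSym A
  | letter : A → TapeSym A

/-- Head moves. -/
inductive Move : Type
  | left : Move
  | right : Move
  | stay : Move

/-- The head position after a move from position `i`. -/
def Move.target : Move → ℕ → ℕ
  | Move.left, i => i - 1
  | Move.right, i => i + 1
  | Move.stay, i => i

/-- A two-way nondeterministic finite automaton over the alphabet `A` with state set `Fin n`.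
`trans q s q' d` says: in state `q`, scanning `s`, the automaton may enter state `q'` and make
the move `d`. The head never moves beyond an endmarker. -/
structure TwoNFA (A : Type) (n : ℕ) where
  init : Fin n
  acc : Set (Fin n)
  trans : Fin n → TapeSym A → Fin n → Move → Prop
  no_left : ∀ q q', ¬ trans q TapeSym.lend q' Move.left
  no_right : ∀ q q', ¬ trans q TapeSym.rend q' Move.right

/-- The symbol at position `i` of the tape holding `w` between the endmarkers: position `0`
holds the left endmarker, positions `1, …, |w|` the letters, position `|w| + 1` the right
endmarker. -/
def tape {A : Type} (w : List A) : ℕ → TapeSym A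
  | 0 => TapeSym.lend
  | i + 1 => if h : i < w.length then TapeSym.letter w[i] else TapeSym.rend

namespace TwoNFA

variable {A : Type} {n : ℕ}

/-- One step between configurations (head position, state) on input `w`. -/
def Step (M : TwoNFA A n) (w : List A) (c c' : ℕ × Fin n) : Prop :=
  ∃ d, M.trans c.2 (tape w c.1) c'.2 d ∧ c'.1 = d.target c.1

/-- The accepted language: some finite computation from the initial configuration (head on
the left endmarker, initial state) reaches an accepting state. -/
def lang (M : TwoNFA A n) : Set (List A) :=
  {w | ∃ c, Relation.ReflTransGen (M.Step w) (0, M.init) c ∧ c.2 ∈ M.acc}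

/-- A 2DFA: at most one transition for each state and symbol. -/
def IsDet (M : TwoNFA A n) : Prop :=
  ∀ q s q₁ d₁ q₂ d₂, M.trans q s q₁ d₁ → M.trans q s q₂ d₂ → q₁ = q₂ ∧ d₁ = d₂

/-- A 1NFA: the head never moves left. -/
def IsOneWay (M : TwoNFA A n) : Prop :=
  ∀ q s q', ¬ M.trans q s q' Move.left

end TwoNFA

end Vale.Agent.P343
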