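import Mathlib

/-! Partition diagrams, presented by their consistent two-colourings. -/

namespace Vale.Agent.P343

open Set

structure Dia (P Q : Type) where
  rel : Set P → Set Q → Prop
  compl : ∀ {f : Set P} {g : Set Q}, rel f g → rel fᶜ gᶜ
  iInter : ∀ {ι : Type} (f : ι → Set P) (g : ι → Set Q),
    (∀ i, rel (f i) (g i)) → rel (⋂ i, f i) (⋂ i, g i)

namespace Dia

variable {P Q R S : Type}

@[ext] theorem ext' {x y : Dia P Q} (h : ∀ f g, x.rel f g ↔ y.rel f g) : x = y := by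
  cases x; cases y
  congr
  funext f g
  exact propext (h f g)

theorem univ_rel (x : Dia P Q) : x.rel univ univ := by
  have := x.iInter (ι := Empty) (fun e => e.elim) (fun e => e.elim) (fun e => e.elim)
  simpa using this

theorem empty_rel (x : Dia P Q) : x.rel ∅ ∅ := by
  simpa using x.compl x.univ_rel

theorem inter (x : Dia P Q) {f f' : Set P} {g g' : Set Q} (h : x.rel f g) (h' : x.rel f' g') :
    x.rel (f ∩ f') (g ∩ g') := by
  have := x.iInter (ι := Bool) (fun b => cond b f f') (fun b => cond b g g')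
    (fun b => by cases b <;> simpa)
  have e1 : (⋂ b : Bool, cond b f f') = f ∩ f' := by
    ext p; simp [and_comm]
  have e2 : (⋂ b : Bool, cond b g g') = g ∩ g' := by
    ext p; simp [and_comm]
  rwa [e1, e2] at this

theorem iUnion (x : Dia P Q) {ι : Type} (f : ι → Set P) (g : ι → Set Q)
    (h : ∀ i, x.rel (f i) (g i)) : x.rel (⋃ i, f i) (⋃ i, g i) := by
  have := x.compl (x.iInter (fun i => (f i)ᶜ) (fun i => (g i)ᶜ) (fun i => x.compl (h i)))
  simpa [compl_iInter] using this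

theorem union (x : Dia P Q) {f f' : Set P} {g g' : Set Q} (h : x.rel f g) (h' : x.rel f' g') :
    x.rel (f ∪ f') (g ∪ g') := by
  have := x.compl (x.inter (x.compl h) (x.compl h'))
  simpa [compl_inter] using this

def comp (x : Dia P Q) (y : Dia Q R) : Dia P R where
  rel f h := ∃ g, x.rel f g ∧ y.rel g h
  compl := by
    rintro f h ⟨g, h1, h2⟩
    exact ⟨gᶜ, x.compl h1, y.compl h2⟩
  iInter := by
    intro ι f h H
    choose g h1 h2 using H
    exact ⟨⋂ i, g i, x.iInter f g h1, y.iInter g h h2⟩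

def idd (P : Type) : Dia P P where
  rel f g := f = g
  compl := by rintro f g rfl; rfl
  iInter := by
    intro ι f g H
    rw [funext H]

def op (x : Dia P Q) : Dia Q P where
  rel g f := x.rel f g
  compl h := x.compl h
  iInter g f H := x.iInter f g H

theorem comp_assoc (x : Dia P Q) (y : Dia Q R) (z : Dia R S) :
    (x.comp y).comp z = x.comp (y.comp z) := by
  ext f g
  constructor
  · rintro ⟨h, ⟨k, h1, h2⟩, h3⟩
    exact ⟨k, h1, h, h2, h3⟩
  · rintro ⟨k, h1, h, h2, h3⟩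
    exact ⟨h, ⟨k, h1, h2⟩, h3⟩

@[simp] theorem id_comp (x : Dia P Q) : (idd P).comp x = x := by
  ext f g
  constructor
  · rintro ⟨h, rfl, h2⟩; exact h2
  · intro h; exact ⟨f, rfl, h⟩

@[simp] theorem comp_id (x : Dia P Q) : x.comp (idd Q) = x := by
  ext f g
  constructor
  · rintro ⟨h, h1, rfl⟩; exact h1
  · intro h; exact ⟨g, h, rfl⟩

instance : Monoid (Dia P P) where
  mul := comp
  one := idd P
  mul_assoc := comp_assoc
  one_mul := id_comp
  mul_one := comp_id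

theorem mul_def (x y : Dia P P) : x * y = x.comp y := rfl
theorem one_def : (1 : Dia P P) = idd P := rfl

instance [Finite P] [Finite Q] : Finite (Dia P Q) :=
  Finite.of_injective (fun x : Dia P Q => x.rel) (fun x y h => by
    ext f g; simp only at h; rw [h])

theorem exists_atomL (y : Dia P Q) (p : P) : ∃ A B, y.rel A B ∧ p ∈ A ∧
    ∀ f g, y.rel f g → (A ⊆ f ∧ B ⊆ g) ∨ (A ⊆ fᶜ ∧ B ⊆ gᶜ) := by
  let ι := {c : Set P × Set Q // y.rel c.1 c.2 ∧ p ∈ c.1}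
  refine ⟨⋂ i : ι, i.1.1, ⋂ i : ι, i.1.2, y.iInter _ _ (fun i => i.2.1), ?_, ?_⟩
  · exact mem_iInter.2 (fun i => i.2.2)
  · intro f g h
    by_cases hp : p ∈ f
    · left
      exact ⟨iInter_subset (fun i : ι => i.1.1) ⟨(f, g), h, hp⟩,
        iInter_subset (fun i : ι => i.1.2) ⟨(f, g), h, hp⟩⟩
    · right
      exact ⟨iInter_subset (fun i : ι => i.1.1) ⟨(fᶜ, gᶜ), y.compl h, hp⟩,
        iInter_subset (fun i : ι => i.1.2) ⟨(fᶜ, gᶜ), y.compl h, hp⟩⟩

theorem exists_atomR (y : Dia P Q) (q : Q) : ∃ A B, y.rel A B ∧ q ∈ B ∧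
    ∀ f g, y.rel f g → (A ⊆ f ∧ B ⊆ g) ∨ (A ⊆ fᶜ ∧ B ⊆ gᶜ) := by
  obtain ⟨B, A, h1, h2, h3⟩ := y.op.exists_atomL q
  refine ⟨A, B, h1, h2, fun f g h => ?_⟩
  rcases h3 g f h with h | h
  · exact Or.inl ⟨h.2, h.1⟩
  · exact Or.inr ⟨h.2, h.1⟩

/-- Through blocks of a diagram. -/
def Thr (y : Dia P Q) : Type :=
  {c : Set P × Set Q // c.1.Nonempty ∧ c.2.Nonempty ∧ y.rel c.1 c.2 ∧
    ∀ f g, y.rel f g → (c.1 ⊆ f ∧ c.2 ⊆ g) ∨ (c.1 ⊆ fᶜ ∧ c.2 ⊆ gᶜ)}

instance [Finite P] [Finite Q] (y : Dia P Q) : Finite y.Thr := by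
  unfold Thr; infer_instance

theorem thr_iff (y : Dia P Q) (r : y.Thr) {f : Set P} {g : Set Q} (h : y.rel f g) :
    (r.1.1 ⊆ f ↔ r.1.2 ⊆ g) ∧ (r.1.1 ⊆ fᶜ ↔ ¬ r.1.1 ⊆ f) ∧ (r.1.2 ⊆ gᶜ ↔ ¬ r.1.2 ⊆ g) := by
  obtain ⟨⟨A, B⟩, ⟨p, hp⟩, ⟨q, hq⟩, -, h4⟩ := r
  simp only at *
  rcases h4 f g h with ⟨h5, h6⟩ | ⟨h5, h6⟩
  · refine ⟨by simp [h5, h6], ?_, ?_⟩
    · simp only [h5, not_true, iff_false]
      intro h7; exact h7 hp (h5 hp)
    · simp only [h6, not_true, iff_false]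
      intro h7; exact h7 hq (h6 hq)
  · have n1 : ¬ A ⊆ f := fun h7 => h5 hp (h7 hp)
    have n2 : ¬ B ⊆ g := fun h7 => h6 hq (h7 hq)
    exact ⟨by simp [n1, n2], by simp [n1, h5], by simp [n2, h6]⟩

theorem thr_eq (y : Dia P Q) (r r' : y.Thr)
    (h : (r.1.1 ∩ r'.1.1).Nonempty ∨ (r.1.2 ∩ r'.1.2).Nonempty) : r = r' := by
  have h1 := r.2.2.2.2 _ _ r'.2.2.2.1
  have h2 := r'.2.2.2.2 _ _ r.2.2.2.1
  have : (r.1.1 ⊆ r'.1.1 ∧ r.1.2 ⊆ r'.1.2) ∧ (r'.1.1 ⊆ r.1.1 ∧ r'.1.2 ⊆ r.1.2) := by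
    rcases h with ⟨p, hp, hp'⟩ | ⟨p, hp, hp'⟩
    · refine ⟨h1.resolve_right (fun h => h.1 hp hp'), h2.resolve_right (fun h => h.1 hp' hp)⟩
    · refine ⟨h1.resolve_right (fun h => h.2 hp hp'), h2.resolve_right (fun h => h.2 hp' hp)⟩
  apply Subtype.ext
  exact Prod.ext (Subset.antisymm this.1.1 this.2.1) (Subset.antisymm this.1.2 this.2.2)

def upper (y : Dia P Q) : Dia P y.Thr where
  rel f G := (∃ g, y.rel f g) ∧ ∀ r, r ∈ G ↔ r.1.1 ⊆ f
  compl := by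
    rintro f G ⟨⟨g, hg⟩, h⟩
    refine ⟨⟨gᶜ, y.compl hg⟩, fun r => ?_⟩
    rw [mem_compl_iff, h r, (y.thr_iff r hg).2.1]
  iInter := by
    intro ι f G H
    choose g hg using fun i => (H i).1
    refine ⟨⟨_, y.iInter f g hg⟩, fun r => ?_⟩
    simp only [mem_iInter, subset_iInter_iff, (H _).2]

def lower (y : Dia P Q) : Dia y.Thr Q where
  rel G g := (∃ f, y.rel f g) ∧ ∀ r, r ∈ G ↔ r.1.2 ⊆ g
  compl := by
    rintro G g ⟨⟨f, hg⟩, h⟩
    refine ⟨⟨fᶜ, y.compl hg⟩, fun r => ?_⟩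
    rw [mem_compl_iff, h r, (y.thr_iff r hg).2.2]
  iInter := by
    intro ι G g H
    choose f hg using fun i => (H i).1
    refine ⟨⟨_, y.iInter f g hg⟩, fun r => ?_⟩
    simp only [mem_iInter, subset_iInter_iff, (H _).2]

theorem upper_comp_lower (y : Dia P Q) : y.upper.comp y.lower = y := by
  ext f g
  constructor
  · rintro ⟨G, ⟨⟨g0, hg0⟩, h1⟩, ⟨⟨f0, hf0⟩, h2⟩⟩
    have key : ∀ r : y.Thr, r.1.1 ⊆ f ↔ r.1.2 ⊆ g := fun r => (h1 r).symm.trans (h2 r)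
    choose A B hAB hA hmin using y.exists_atomL
    choose A' B' hAB' hB' hmin' using y.exists_atomR
    have e1 : ∀ p ∈ f, A p ⊆ f ∧ B p ⊆ g := by
      intro p hp
      have h3 : A p ⊆ f := ((hmin p f g0 hg0).resolve_right (fun h => h.1 (hA p) hp)).1
      refine ⟨h3, ?_⟩
      rcases (B p).eq_empty_or_nonempty with h | h
      · simp [h]
      · exact (key ⟨(A p, B p), ⟨p, hA p⟩, h, hAB p, hmin p⟩).1 h3
    have e2 : ∀ q ∈ g, A' q ⊆ f ∧ B' q ⊆ g := by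
      intro q hq
      have h3 : B' q ⊆ g := ((hmin' q f0 g hf0).resolve_right (fun h => h.2 (hB' q) hq)).2
      refine ⟨?_, h3⟩
      rcases (A' q).eq_empty_or_nonempty with h | h
      · simp [h]
      · exact (key ⟨(A' q, B' q), h, ⟨q, hB' q⟩, hAB' q, hmin' q⟩).2 h3
    have := y.union (y.iUnion (ι := f) (fun p => A p) (fun p => B p) (fun p => hAB p))
      (y.iUnion (ι := g) (fun p => A' p) (fun p => B' p) (fun p => hAB' p))
    have e3 : ((⋃ p : f, A p) ∪ ⋃ q : g, A' q) = f := by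
      apply Subset.antisymm
      · exact union_subset (iUnion_subset fun p => (e1 p p.2).1)
          (iUnion_subset fun p => (e2 p p.2).1)
      · intro p hp
        exact Or.inl (mem_iUnion.2 ⟨⟨p, hp⟩, hA p⟩)
    have e4 : ((⋃ p : f, B p) ∪ ⋃ q : g, B' q) = g := by
      apply Subset.antisymm
      · exact union_subset (iUnion_subset fun p => (e1 p p.2).2)
          (iUnion_subset fun p => (e2 p p.2).2)
      · intro p hp
        exact Or.inr (mem_iUnion.2 ⟨⟨p, hp⟩, hB' p⟩)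
    rwa [e3, e4] at this
  · intro h
    exact ⟨{r | r.1.1 ⊆ f}, ⟨⟨g, h⟩, fun r => Iff.rfl⟩, ⟨⟨f, h⟩, fun r => (y.thr_iff r h).1⟩⟩

theorem thr_union (y : Dia P Q) (G : Set y.Thr) :
    y.upper.rel (⋃ r : G, r.1.1.1) G ∧ y.lower.rel G (⋃ r : G, r.1.1.2) := by
  have h := y.iUnion (ι := G) (fun r => r.1.1.1) (fun r => r.1.1.2) (fun r => r.1.2.2.2.1)
  refine ⟨⟨⟨_, h⟩, fun r => ⟨fun hr => ?_, fun hr => ?_⟩⟩, ⟨⟨_, h⟩, fun r => ⟨fun hr => ?_, fun hr => ?_⟩⟩⟩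
  · exact subset_iUnion (fun r : G => r.1.1.1) ⟨r, hr⟩
  · obtain ⟨p, hp⟩ := r.2.1
    obtain ⟨r', hr'⟩ := mem_iUnion.1 (hr hp)
    rw [y.thr_eq r r'.1 (Or.inl ⟨p, hp, hr'⟩)]
    exact r'.2
  · exact subset_iUnion (fun r : G => r.1.1.2) ⟨r, hr⟩
  · obtain ⟨p, hp⟩ := r.2.2.1
    obtain ⟨r', hr'⟩ := mem_iUnion.1 (hr hp)
    rw [y.thr_eq r r'.1 (Or.inr ⟨p, hp, hr'⟩)]
    exact r'.2

theorem op_upper_comp (y : Dia P Q) : y.upper.op.comp y.upper = idd _ := by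
  ext G G'
  constructor
  · rintro ⟨f, ⟨-, h1⟩, ⟨-, h2⟩⟩
    ext r; rw [h1 r, h2 r]
  · rintro rfl
    exact ⟨_, (y.thr_union G).1, (y.thr_union G).1⟩

theorem lower_comp_op (y : Dia P Q) : y.lower.comp y.lower.op = idd _ := by
  ext G G'
  constructor
  · rintro ⟨f, ⟨-, h1⟩, ⟨-, h2⟩⟩
    ext r; rw [h1 r, h2 r]
  · rintro rfl
    exact ⟨_, (y.thr_union G).2, (y.thr_union G).2⟩

theorem exists_split [Finite P] (y : Dia P P) (hy : y.comp y = y) :
    ∃ (R : Type) (_ : Finite R) (a : Dia P R) (b : Dia R P),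
      a.comp b = y ∧ b.comp a = idd R := by
  refine ⟨y.Thr, inferInstance, y.upper, y.lower, y.upper_comp_lower, ?_⟩
  calc y.lower.comp y.upper
      = (y.upper.op.comp y.upper).comp ((y.lower.comp y.upper).comp
          (y.lower.comp y.lower.op)) := by
        rw [op_upper_comp, lower_comp_op]; simp
    _ = y.upper.op.comp (((y.upper.comp y.lower).comp (y.upper.comp y.lower)).comp y.lower.op) := by
        simp only [comp_assoc]
    _ = y.upper.op.comp ((y.upper.comp y.lower).comp y.lower.op) := by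
        rw [upper_comp_lower, hy]
    _ = (y.upper.op.comp y.upper).comp (y.lower.comp y.lower.op) := by
        simp only [comp_assoc]
    _ = idd _ := by rw [op_upper_comp, lower_comp_op]; simp

end Dia

end Vale.Agent.P343
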