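import Vale.Agent.P343.Auto

/-! One-way liveness and the final lower bound. -/

namespace Vale.Agent.P343

open Set

/-- Letters: relations on `h` points. -/
abbrev Lt (h : ℕ) : Type := Fin h → Fin h → Bool

variable {h : ℕ}

def toBin (σ : Lt h) : Bin :=
  ⟨fun x y => ∃ (hx : x < h) (hy : y < h), σ ⟨x, hx⟩ ⟨y, hy⟩ = true⟩

def phi (w : List (Lt h)) : Bin := w.foldr (fun a m => toBin a * m) (Bin.I h)

theorem I_mul_toBin (σ : Lt h) : Bin.I h * toBin σ = toBin σ := by
  ext x y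
  simp only [Bin.mul_r, Bin.I, toBin]
  constructor
  · rintro ⟨z, ⟨rfl, -⟩, h⟩; exact h
  · rintro ⟨hx, h⟩; exact ⟨x, ⟨rfl, hx⟩, hx, h⟩

theorem toBin_mul_I (σ : Lt h) : toBin σ * Bin.I h = toBin σ := by
  ext x y
  simp only [Bin.mul_r, Bin.I, toBin]
  constructor
  · rintro ⟨z, h, ⟨rfl, -⟩⟩; exact h
  · rintro ⟨hx, hy, h⟩; exact ⟨y, ⟨hx, hy, h⟩, rfl, hy⟩

theorem I_mul_phi (w : List (Lt h)) : Bin.I h * phi w = phi w := by
  cases w with
  | nil => simp [phi, Bin.I_mul_I]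
  | cons a w =>
    change Bin.I h * (toBin a * phi w) = toBin a * phi w
    rw [← mul_assoc, I_mul_toBin]

theorem phi_append (u v : List (Lt h)) : phi (u ++ v) = phi u * phi v := by
  induction u with
  | nil => exact (I_mul_phi v).symm
  | cons a u ih =>
    change toBin a * phi (u ++ v) = toBin a * phi u * phi v
    rw [ih, mul_assoc]

theorem phi_single (a : Lt h) : phi [a] = toBin a := toBin_mul_I a

theorem phi_lt (w : List (Lt h)) {x y : ℕ} (H : (phi w).r x y) : x < h ∧ y < h := by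
  induction w generalizing x with
  | nil => obtain ⟨rfl, h1⟩ := H; exact ⟨h1, h1⟩
  | cons a w ih =>
    obtain ⟨z, ⟨hx, -⟩, h2⟩ := H
    exact ⟨hx, (ih h2).2⟩

/-- The one-way automaton for liveness. -/
def liveNFA (h : ℕ) : TwoNFA (Lt h) (h + 2) where
  init := ⟨h, by omega⟩
  acc := {q | q.1 = h + 1}
  trans q s q' d := match s with
    | TapeSym.lend => q.1 = h ∧ q'.1 < h ∧ d = Move.right
    | TapeSym.letter σ => (toBin σ).r q.1 q'.1 ∧ d = Move.right
    | TapeSym.rend => q.1 < h ∧ q'.1 = h + 1 ∧ d = Move.stay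
  no_left := by rintro q q' ⟨-, -, h⟩; cases h
  no_right := by rintro q q' ⟨-, -, h⟩; cases h

theorem liveNFA_oneWay (h : ℕ) : (liveNFA h).IsOneWay := by
  intro q s q' H
  cases s with
  | lend => obtain ⟨-, -, h⟩ := H; cases h
  | rend => obtain ⟨-, -, h⟩ := H; cases h
  | letter σ => obtain ⟨-, h⟩ := H; cases h

theorem take_succ_phi (w : List (Lt h)) (i : ℕ) (hi : i < w.length) :
    phi (w.take (i + 1)) = phi (w.take i) * toBin w[i] := by
  rw [List.take_succ_eq_append_getElem hi, phi_append, phi_single]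

theorem mem_live (w : List (Lt h)) : w ∈ (liveNFA h).lang ↔ ∃ x y, (phi w).r x y := by
  constructor
  · rintro ⟨c, h1, h2⟩
    have : (c.1 = 0 ∧ c.2.1 = h) ∨
        (∃ i, c.1 = i + 1 ∧ i ≤ w.length ∧ ∃ x, (phi (w.take i)).r x c.2.1) ∨
        (c.2.1 = h + 1 ∧ ∃ x y, (phi w).r x y) := by
      clear h2
      induction h1 with
      | refl => exact Or.inl ⟨rfl, rfl⟩
      | @tail b c _ hbc ih =>
        obtain ⟨d, h3, h4⟩ := hbc
        rcases ih with ⟨h5, h6⟩ | ⟨i, h5, h6, x, h7⟩ | ⟨h5, h6⟩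
        · rw [h5] at h3 h4
          obtain ⟨-, h7, rfl⟩ := h3
          exact Or.inr (Or.inl ⟨0, h4, by omega, c.2.1, rfl, h7⟩)
        · rw [h5] at h3 h4
          by_cases hi : i < w.length
          · simp only [tape, hi, dite_true] at h3
            obtain ⟨h8, rfl⟩ := h3
            refine Or.inr (Or.inl ⟨i + 1, h4, hi, x, ?_⟩)
            rw [take_succ_phi w i hi]
            exact ⟨_, h7, h8⟩
          · simp only [tape, hi, dite_false] at h3
            obtain ⟨-, h8, -⟩ := h3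
            rw [List.take_of_length_le (by omega)] at h7
            exact Or.inr (Or.inr ⟨h8, x, _, h7⟩)
        · exfalso
          generalize tape w b.1 = s at h3
          cases s with
          | lend => have := h3.1; omega
          | rend => have := h3.1; omega
          | letter σ => obtain ⟨⟨hx, -⟩, -⟩ := h3; omega
    have h3 : c.2.1 = h + 1 := h2
    rcases this with ⟨-, h5⟩ | ⟨i, -, -, x, h5⟩ | ⟨-, h5⟩
    · omega
    · have := (phi_lt _ h5).2; omega
    · exact h5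
  · rintro ⟨x, y, H⟩
    have : ∀ i, i ≤ w.length → ∀ (y : Fin (h + 2)), (phi (w.take i)).r x y.1 →
        Relation.ReflTransGen ((liveNFA h).Step w) (0, (liveNFA h).init) (i + 1, y) := by
      intro i
      induction i with
      | zero =>
        intro _ y H
        exact .single ⟨Move.right, ⟨rfl, (phi_lt _ H).2, rfl⟩, rfl⟩
      | succ i ih =>
        intro hi y H
        rw [take_succ_phi w i hi] at H
        obtain ⟨z, h1, h2⟩ := H
        have hz := (phi_lt _ h1).2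
        refine (ih (by omega) ⟨z, by omega⟩ h1).tail ⟨Move.right, ?_, rfl⟩
        have hi' : i < w.length := hi
        simp only [tape, hi', dite_true]
        exact ⟨h2, rfl⟩
    have hy := (phi_lt _ H).2
    refine ⟨(w.length + 1, ⟨h + 1, by omega⟩), (this w.length le_rfl ⟨y, by omega⟩
      (by rwa [List.take_length])).tail ⟨Move.stay, ?_, rfl⟩, rfl⟩
    simp only [tape, lt_irrefl, dite_false]
    exact ⟨hy, rfl, rfl⟩

theorem exists_toBin (m : Bin) : ∃ σ : Lt h, toBin σ = Bin.I h * m * Bin.I h := by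
  classical
  refine ⟨fun x y => decide (m.r x.1 y.1), ?_⟩
  ext x y
  simp only [toBin, Bin.mul_r, Bin.I, decide_eq_true_eq]
  constructor
  · rintro ⟨hx, hy, H⟩
    exact ⟨y, ⟨x, ⟨rfl, hx⟩, H⟩, rfl, hy⟩
  · rintro ⟨_, ⟨_, ⟨rfl, hx⟩, H⟩, rfl, hy⟩
    exact ⟨hx, hy, H⟩

theorem phi_probe {x y : ℕ} (hx : x < h) (hy : y < h) :
    ∃ u v : List (Lt h), ∀ w : List (Lt h),
      (∃ p q, (phi (u ++ w ++ v)).r p q) ↔ (phi w).r x y := by
  obtain ⟨σ, hσ⟩ := exists_toBin (h := h) ⟨fun p q => p = x ∧ q = x⟩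
  obtain ⟨σ', hσ'⟩ := exists_toBin (h := h) ⟨fun p q => p = y ∧ q = y⟩
  refine ⟨[σ], [σ'], fun w => ?_⟩
  rw [phi_append, phi_append, phi_single, phi_single, hσ, hσ']
  simp only [Bin.mul_r, Bin.I]
  constructor
  · rintro ⟨p, q, a, ⟨b, ⟨c, ⟨d, -, -, rfl⟩, rfl, -⟩, H⟩, e, ⟨f, ⟨rfl, -⟩, rfl, -⟩, -⟩
    exact H
  · intro H
    exact ⟨x, y, y, ⟨x, ⟨x, ⟨x, ⟨rfl, hx⟩, rfl, rfl⟩, rfl, hx⟩, H⟩, y,
      ⟨y, ⟨rfl, hy⟩, rfl, rfl⟩, rfl, hy⟩

def repOf {m : ℕ} (D : TwoNFA (Lt h) m) (hD : D.IsDet) (hL : D.lang = (liveNFA h).lang) :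
    Rep (TwoNFA.Pt m) (Bin.I h) where
  R x r := ∃ w, x = D.wordDia w ∧ r = phi w
  mul := by
    rintro _ _ _ _ ⟨w, rfl, rfl⟩ ⟨w', rfl, rfl⟩
    exact ⟨w ++ w', (D.wordDia_append w w').symm, (phi_append w w').symm⟩
  func := by
    have key : ∀ w w' : List (Lt h), D.wordDia w = D.wordDia w' → ∀ x y,
        (phi w).r x y → (phi w').r x y := by
      intro w w' e x y H
      obtain ⟨u, v, huv⟩ := phi_probe (phi_lt w H).1 (phi_lt w H).2
      rw [← huv, ← mem_live, ← hL] at H ⊢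
      refine (D.lang_congr hD ?_).1 H
      simp only [TwoNFA.wordDia_append, e]
    rintro _ _ _ ⟨w, rfl, rfl⟩ ⟨w', e, rfl⟩
    ext x y
    exact ⟨key w w' e x y, key w' w e.symm x y⟩
  one := ⟨[], rfl, rfl⟩
  total r := by
    obtain ⟨σ, hσ⟩ := exists_toBin (h := h) r
    exact ⟨_, [σ], rfl, by rw [phi_single, hσ]⟩

theorem live_lower (hh : 2 ≤ h) {m : ℕ} (D : TwoNFA (Lt h) m) (hD : D.IsDet)
    (hL : D.lang = (liveNFA h).lang) : 2 ^ ((h - 2) / 19) ≤ 2 * m + 1 := by
  have := (repOf D hD hL).card_ge hh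
  simp only [Nat.card_eq_fintype_card, Fintype.card_option, Fintype.card_prod, Fintype.card_fin,
    Fintype.card_bool] at this
  omega

theorem poly_small (p : Polynomial ℝ) :
    Filter.Tendsto (fun k : ℕ => p.eval (k : ℝ) / 2 ^ k) Filter.atTop (nhds 0) := by
  induction p using Polynomial.induction_on' with
  | add p q hp hq =>
    have := hp.add hq
    simpa [add_div] using this
  | monomial n a =>
    have := (tendsto_pow_const_div_const_pow_of_one_lt n (r := 2) (by norm_num)).const_mul a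
    simpa [mul_div_assoc] using this

theorem no_poly : ¬ ∃ p : Polynomial ℝ, ∀ (A : Type) [Fintype A] (n : ℕ) (M : TwoNFA A n),
    M.IsOneWay → ∃ (m : ℕ) (D : TwoNFA A m), D.IsDet ∧ D.lang = M.lang ∧
      (m : ℝ) ≤ p.eval (n : ℝ) := by
  rintro ⟨p, hp⟩
  have h1 := poly_small (Polynomial.C 2 * p.comp (Polynomial.C 19 * Polynomial.X +
    Polynomial.C 4) + 1)
  obtain ⟨k, hk⟩ := (h1.eventually (gt_mem_nhds (show (0 : ℝ) < 1 by norm_num))).exists
  obtain ⟨m, D, h2, h3, h4⟩ := hp _ _ (liveNFA (19 * k + 2)) (liveNFA_oneWay _)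
  have h5 := live_lower (by omega) D h2 h3
  have e : (19 * k + 2 - 2) / 19 = k := by omega
  rw [e] at h5
  have h6 : ((2 : ℝ)) ^ k ≤ 2 * m + 1 := by exact_mod_cast h5
  rw [div_lt_one (by positivity)] at hk
  simp only [Polynomial.eval_add, Polynomial.eval_mul, Polynomial.eval_C, Polynomial.eval_comp,
    Polynomial.eval_X, Polynomial.eval_one] at hk
  have e2 : ((19 * k + 2 + 2 : ℕ) : ℝ) = 19 * k + 4 := by push_cast; ring
  rw [e2] at h4
  linarith

end Vale.Agent.P343
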