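import Vale.Agent.P343.Supp

/-! Representations of the monoid of binary relations by diagrams, and their corners. -/

namespace Vale.Agent.P343

open Set

/-- Binary relations on the naturals. -/
@[ext] structure Bin where
  r : ℕ → ℕ → Prop

instance : Semigroup Bin where
  mul m m' := ⟨fun x z => ∃ y, m.r x y ∧ m'.r y z⟩
  mul_assoc a b c := by
    ext x w
    constructor
    · rintro ⟨z, ⟨y, h1, h2⟩, h3⟩; exact ⟨y, h1, z, h2, h3⟩
    · rintro ⟨y, h1, z, h2, h3⟩; exact ⟨z, ⟨y, h1, h2⟩, h3⟩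

theorem Bin.mul_r (m m' : Bin) (x z : ℕ) : (m * m').r x z ↔ ∃ y, m.r x y ∧ m'.r y z := Iff.rfl

theorem exists_idem_pow {M : Type} [Monoid M] [Finite M] (x : M) :
    ∃ k, x ^ (k + 1) * x ^ (k + 1) = x ^ (k + 1) := by
  obtain ⟨i, j, hij, h⟩ := Finite.exists_ne_map_eq_of_infinite (fun n : ℕ => x ^ n)
  wlog hlt : i < j generalizing i j
  · exact this j i hij.symm h.symm (by omega)
  obtain ⟨p, rfl⟩ : ∃ p, j = i + (p + 1) := ⟨j - i - 1, by omega⟩
  have h1 : ∀ t n, x ^ (i + n + t * (p + 1)) = x ^ (i + n) := by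
    intro t
    induction t with
    | zero => simp
    | succ t ih =>
      intro n
      have : i + n + (t + 1) * (p + 1) = (i + (p + 1)) + (n + t * (p + 1)) := by ring
      rw [this, pow_add, ← show x ^ i = x ^ (i + (p + 1)) from h, ← pow_add, ← add_assoc, ih]
  refine ⟨(i + 1) * (p + 1) - 1, ?_⟩
  have e : (i + 1) * (p + 1) - 1 + 1 = (i + 1) * (p + 1) := by
    have : 0 < (i + 1) * (p + 1) := by positivity
    omega
  rw [e, ← pow_add]
  obtain ⟨n, hn⟩ : ∃ n, (i + 1) * (p + 1) = i + n := ⟨(i + 1) * (p + 1) - i, by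
    have : i ≤ (i + 1) * (p + 1) := by nlinarith
    omega⟩
  have := h1 (i + 1) n
  rw [← hn] at this
  exact this

structure Rep (P : Type) (f : Bin) where
  R : Dia P P → Bin → Prop
  mul : ∀ {x m x' m'}, R x m → R x' m' → R (x * x') (m * m')
  func : ∀ {x m m'}, R x m → R x m' → m = m'
  one : R 1 f
  total : ∀ m, ∃ x, R x (f * m * f)

namespace Rep

variable {P : Type} {f : Bin}

theorem left (ρ : Rep P f) {x m} (h : ρ.R x m) : f * m = m := by
  have := ρ.mul ρ.one h
  rw [one_mul] at this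
  exact ρ.func this h

theorem right (ρ : Rep P f) {x m} (h : ρ.R x m) : m * f = m := by
  have := ρ.mul h ρ.one
  rw [mul_one] at this
  exact ρ.func this h

theorem pow (ρ : Rep P f) {x m} (h : ρ.R x m) (hm : m * m = m) (k : ℕ) :
    ρ.R (x ^ (k + 1)) m := by
  induction k with
  | zero => simpa using h
  | succ k ih =>
    have := ρ.mul ih h
    rwa [hm, ← pow_succ] at this

theorem corner [Finite P] (ρ : Rep P f) {y : Dia P P} {g : Bin} (hy : ρ.R y g)
    (hyy : y * y = y) :
    ∃ (P' : Type) (_ : Finite P') (a : Dia P P') (b : Dia P' P) (ρ' : Rep P' g),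
      a.comp b = y ∧ b.comp a = Dia.idd P' ∧
      (∀ x m, ρ.R x m → ρ'.R (b.comp (x.comp a)) (g * m * g)) ∧
      (∀ x' m', ρ'.R x' m' → ∃ x m, ρ.R x m ∧ x' = b.comp (x.comp a) ∧ m' = g * m * g) := by
  obtain ⟨P', hP', a, b, hab, hba⟩ := Dia.exists_split y hyy
  have hgg : g * g = g := by
    have := ρ.mul hy hy
    rw [hyy] at this
    exact ρ.func this hy
  have hfg : f * g = g := ρ.left hy
  have hgf : g * f = g := ρ.right hy
  refine ⟨P', hP', a, b,
    { R := fun x' m' => ∃ x m, ρ.R x m ∧ x' = b.comp (x.comp a) ∧ m' = g * m * g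
      mul := ?_, func := ?_, one := ?_, total := ?_ }, hab, hba, ?_, ?_⟩
  · rintro _ _ _ _ ⟨x, m, h, rfl, rfl⟩ ⟨x', m', h', rfl, rfl⟩
    refine ⟨x * y * x', m * g * m', ρ.mul (ρ.mul h hy) h', ?_, ?_⟩
    · simp only [Dia.mul_def, ← hab, Dia.comp_assoc]
    · calc g * m * g * (g * m' * g) = g * m * (g * g) * m' * g := by simp only [mul_assoc]
        _ = _ := by rw [hgg]; simp only [mul_assoc]
  · rintro _ _ _ ⟨x, m, h, rfl, rfl⟩ ⟨x', m', h', e, rfl⟩
    have e' : y * x * y = y * x' * y := by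
      calc y * x * y = a.comp ((b.comp (x.comp a)).comp b) := by
            simp only [Dia.mul_def, ← hab, Dia.comp_assoc]
        _ = a.comp ((b.comp (x'.comp a)).comp b) := by rw [e]
        _ = _ := by simp only [Dia.mul_def, ← hab, Dia.comp_assoc]
    have h1 := ρ.mul (ρ.mul hy h) hy
    have h2 := ρ.mul (ρ.mul hy h') hy
    rw [e'] at h1
    exact ρ.func h1 h2
  · refine ⟨y, g, hy, ?_, by rw [hgg, hgg]⟩
    calc (1 : Dia P' P') = (b.comp a).comp (b.comp a) := by rw [hba]; simp [Dia.one_def]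
      _ = _ := by simp only [← hab, Dia.comp_assoc]
  · intro m
    obtain ⟨x, hx⟩ := ρ.total m
    refine ⟨_, x, _, hx, rfl, ?_⟩
    calc g * m * g = (g * f) * m * (f * g) := by rw [hfg, hgf]
      _ = _ := by simp only [mul_assoc]
  · intro x m h
    exact ⟨x, m, h, rfl, rfl⟩
  · intro x' m' h
    exact h

theorem exists_min_idem [Finite P] (ρ : Rep P f) {g : Bin} (hg : f * g * f = g)
    (hgg : g * g = g) : ∃ y, ρ.R y g ∧ y * y = y ∧
      ∀ s, ρ.R s g → ∃ k, (y * s * y) ^ (k + 1) = y := by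
  let S : Set (Dia P P) := {s | ρ.R s g}
  let T : Set (Dia P P) := {s | ρ.R s g ∧ s * s = s}
  have hT : T.Nonempty := by
    obtain ⟨x, hx⟩ := ρ.total g
    rw [hg] at hx
    obtain ⟨k, hk⟩ := exists_idem_pow x
    exact ⟨_, ρ.pow hx hgg k, hk⟩
  obtain ⟨y, ⟨hy, hyy⟩, hmin⟩ := Set.exists_min_image T
    (fun y => ((fun s => y * s * y) '' S).ncard) (Set.toFinite T) hT
  refine ⟨y, hy, hyy, fun s hs => ?_⟩
  have ht : ρ.R (y * s * y) g := by
    have := ρ.mul (ρ.mul hy hs) hy
    rwa [hgg, hgg] at this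
  obtain ⟨k, hk⟩ := exists_idem_pow (y * s * y)
  refine ⟨k, ?_⟩
  set e := (y * s * y) ^ (k + 1) with he
  have heS : ρ.R e g := ρ.pow ht hgg k
  have hye : y * e = e := by
    rw [he, pow_succ', ← mul_assoc, ← mul_assoc, ← mul_assoc, hyy]
  have hey : e * y = e := by
    rw [he, pow_succ, mul_assoc, mul_assoc (y * s), hyy]
  have hsub : (fun s => e * s * e) '' S ⊆ (fun s => y * s * y) '' S := by
    rintro _ ⟨s', hs', rfl⟩
    refine ⟨e * s' * e, ?_, ?_⟩
    · have := ρ.mul (ρ.mul heS hs') heS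
      rwa [hgg, hgg] at this
    · calc y * (e * s' * e) * y = (y * e) * s' * (e * y) := by simp only [mul_assoc]
        _ = _ := by rw [hye, hey]
  have heq := Set.eq_of_subset_of_ncard_le hsub (hmin e ⟨heS, hk⟩)
  have : y ∈ (fun s => e * s * e) '' S := by
    rw [heq]
    exact ⟨y, hy, by simp only [hyy]⟩
  obtain ⟨s', -, hs'⟩ := this
  simp only at hs'
  calc e = e * y := hey.symm
    _ = e * (e * s' * e) := by rw [hs']
    _ = (e * e) * s' * e := by simp only [mul_assoc]
    _ = y := by rw [hk, hs']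

theorem transfer [Finite P] (ρ : Rep P f) {g : Bin} (hg : f * g * f = g) (hgg : g * g = g) :
    ∃ (P' : Type) (_ : Finite P') (ρ' : Rep P' g), ∀ mL mR, g * mL * f * mR * g = g →
      ∀ x m V, ρ.R x m → x.Supp V →
        ∃ x' V', ρ'.R x' (g * mL * m * mR * g) ∧ x'.Supp V' ∧ V'.ncard ≤ V.ncard := by
  obtain ⟨y, hy, hyy, hmin⟩ := ρ.exists_min_idem hg hgg
  obtain ⟨P', hP', a, b, ρ', hab, hba, h1, h2⟩ := ρ.corner hy hyy
  have hff : f * f = f := ρ.left ρ.one
  have hfg : f * g = g := ρ.left hy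
  have hgf : g * f = g := ρ.right hy
  have hby : b.comp y = b := by rw [← hab, ← Dia.comp_assoc, hba]; simp
  have hya : y.comp a = a := by rw [← hab, Dia.comp_assoc, hba]; simp
  refine ⟨P', hP', ρ', fun mL mR hLR x m V hx hV => ?_⟩
  obtain ⟨t, ht⟩ := ρ.total mL
  obtain ⟨t', ht'⟩ := ρ.total mR
  have hs : ρ.R (y * (t * t') * y) g := by
    have := ρ.mul (ρ.mul hy (ρ.mul ht ht')) hy
    have e : g * (f * mL * f * (f * mR * f)) * g = g := by
      calc g * (f * mL * f * (f * mR * f)) * g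
          = (g * f) * mL * (f * f) * mR * (f * g) := by simp only [mul_assoc]
        _ = g := by rw [hgf, hff, hfg, hLR]
    rwa [e] at this
  obtain ⟨k, hk⟩ := hmin _ hs
  have hs2 : y * (y * (t * t') * y) * y = y * (t * t') * y := by
    calc y * (y * (t * t') * y) * y = (y * y) * (t * t') * (y * y) := by simp only [mul_assoc]
      _ = _ := by rw [hyy]
  rw [hs2] at hk
  set η : Dia P' P' := b.comp ((t * t').comp a) with hη
  have hηR : ρ'.R η g := by
    have := h1 _ _ hs
    rw [hgg, hgg] at this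
    have e : b.comp ((y * (t * t') * y).comp a) = η := by
      calc b.comp ((y * (t * t') * y).comp a)
          = (b.comp y).comp ((t * t').comp (y.comp a)) := by
            simp only [Dia.mul_def, Dia.comp_assoc]
        _ = η := by rw [hby, hya]
    rwa [e] at this
  have hpow : ∀ n, η ^ (n + 1) = b.comp (((y * (t * t') * y) ^ (n + 1)).comp a) := by
    intro n
    induction n with
    | zero =>
      simp only [zero_add, pow_one]
      calc η = (b.comp y).comp ((t * t').comp (y.comp a)) := by rw [hby, hya]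
        _ = _ := by simp only [Dia.mul_def, Dia.comp_assoc]
    | succ n ih =>
      rw [pow_succ η, ih, pow_succ (y * (t * t') * y) (n + 1)]
      calc (b.comp (((y * (t * t') * y) ^ (n + 1)).comp a)) * η
          = b.comp (((y * (t * t') * y) ^ (n + 1)).comp
              ((a.comp b).comp ((t * t').comp (y.comp a)))) := by
            rw [hya]; simp only [hη, Dia.mul_def, Dia.comp_assoc]
        _ = _ := by rw [hab]; simp only [Dia.mul_def, Dia.comp_assoc]
  have hη1 : η * η ^ k = 1 := by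
    rw [← pow_succ', hpow, hk, hya, hba]; rfl
  have hη'R : ρ'.R (η ^ k) g := by
    cases k with
    | zero => simpa using ρ'.one
    | succ k => exact ρ'.pow hηR hgg k
  have hBA : (b.comp t).comp (t'.comp (a.comp (η ^ k))) = Dia.idd P' := by
    rw [← Dia.one_def, ← hη1]
    simp only [hη, Dia.mul_def, Dia.comp_assoc]
  obtain ⟨τ, hτ1, hτ2, -⟩ := Dia.transport _ _ hBA
  refine ⟨_, τ V, ?_, hτ1 V x hV, hτ2 V⟩
  have := ρ'.mul (h1 _ _ (ρ.mul (ρ.mul ht hx) ht')) hη'R
  have e1 : g * (f * mL * f * m * (f * mR * f)) * g * g = g * mL * m * mR * g := by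
    calc g * (f * mL * f * m * (f * mR * f)) * g * g
        = (g * f) * mL * ((f * m) * f) * mR * ((f * g) * g) := by simp only [mul_assoc]
      _ = _ := by rw [hgf, ρ.left hx, ρ.right hx, hfg, hgg]
  rw [e1] at this
  have e2 : b.comp ((t * x * t').comp a) * η ^ k =
      (b.comp t).comp (x.comp (t'.comp (a.comp (η ^ k)))) := by
    simp only [Dia.mul_def, Dia.comp_assoc]
  rwa [e2] at this

end Rep

end Vale.Agent.P343
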