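import Vale.Agent.P343.Dia

/-! Supports of diagrams and their behaviour under retractions. -/

namespace Vale.Agent.P343

open Set

namespace Dia

variable {P R : Type}

/-- The diagram is the identity outside `V`. -/
def Supp (x : Dia P P) (V : Set P) : Prop :=
  (∀ p, p ∉ V → ∀ f g, x.rel f g → (p ∈ f ↔ p ∈ g)) ∧ (∀ p, p ∉ V → x.rel {p} {p})

theorem Supp.mono {x : Dia P P} {V W : Set P} (h : x.Supp V) (hVW : V ⊆ W) : x.Supp W :=
  ⟨fun p hp => h.1 p (fun h' => hp (hVW h')), fun p hp => h.2 p (fun h' => hp (hVW h'))⟩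

theorem supp_univ (x : Dia P P) : x.Supp univ :=
  ⟨fun p hp => (hp (mem_univ p)).elim, fun p hp => (hp (mem_univ p)).elim⟩

theorem supp_one (V : Set P) : (1 : Dia P P).Supp V :=
  ⟨fun p _ f g h => by rw [show f = g from h], fun _ _ => rfl⟩

theorem Supp.mul {x y : Dia P P} {V : Set P} (hx : x.Supp V) (hy : y.Supp V) :
    (x * y).Supp V := by
  refine ⟨fun p hp f g h => ?_, fun p hp => ⟨{p}, hx.2 p hp, hy.2 p hp⟩⟩
  obtain ⟨k, h1, h2⟩ := h
  exact (hx.1 p hp f k h1).trans (hy.1 p hp k g h2)

theorem Supp.pow {x : Dia P P} {V : Set P} (hx : x.Supp V) (n : ℕ) : (x ^ n).Supp V := by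
  induction n with
  | zero => simpa using supp_one V
  | succ n ih => rw [pow_succ]; exact ih.mul hx

theorem Supp.rel_self {x : Dia P P} {V : Set P} (hx : x.Supp V) {f : Set P}
    (hf : Disjoint f V) : x.rel f f := by
  have := x.iUnion (ι := f) (fun p => {p.1}) (fun p => {p.1})
    (fun p => hx.2 p (fun h => (disjoint_left.1 hf) p.2 h))
  simpa using this

theorem Supp.eq_one {x : Dia P P} (hx : x.Supp ∅) : x = 1 := by
  ext f g
  constructor
  · intro h
    ext p
    exact hx.1 p (notMem_empty p) f g h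
  · rintro (rfl : f = g)
    exact hx.rel_self (disjoint_empty f)

theorem exists_cls (b : Dia R P) (a : Dia P R) (h : b.comp a = idd R) :
    ∃ cls : R → Set P, (∀ r, b.rel {r} (cls r) ∧ a.rel (cls r) {r}) ∧
      (∀ r G f, b.rel G f → a.rel f G → r ∈ G → cls r ⊆ f) := by
  have key : ∀ r : R, ∃ c : Set P, (b.rel {r} c ∧ a.rel c {r}) ∧
      (∀ G f, b.rel G f → a.rel f G → r ∈ G → c ⊆ f) := by
    intro r
    let ι := {c : Set R × Set P // b.rel c.1 c.2 ∧ a.rel c.2 c.1 ∧ r ∈ c.1}
    have h0 : (b.comp a).rel {r} {r} := by rw [h]; rfl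
    obtain ⟨f0, h1, h2⟩ := h0
    have e : (⋂ i : ι, i.1.1) = {r} := by
      apply Subset.antisymm
      · exact iInter_subset (fun i : ι => i.1.1) ⟨({r}, f0), h1, h2, rfl⟩
      · rintro _ rfl
        exact mem_iInter.2 (fun i => i.2.2.2)
    refine ⟨⋂ i : ι, i.1.2, ⟨?_, ?_⟩, ?_⟩
    · rw [← e]; exact b.iInter _ _ (fun i => i.2.1)
    · rw [← e]; exact a.iInter _ _ (fun i => i.2.2.1)
    · intro G f h3 h4 h5
      exact iInter_subset (fun i : ι => i.1.2) ⟨(G, f), h3, h4, h5⟩
  choose cls h1 h2 using key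
  exact ⟨cls, h1, h2⟩

theorem transport [Finite P] [Finite R] (b : Dia R P) (a : Dia P R) (h : b.comp a = idd R) :
    ∃ τ : Set P → Set R,
      (∀ V (x : Dia P P), x.Supp V → (b.comp (x.comp a)).Supp (τ V)) ∧
      (∀ V, (τ V).ncard ≤ V.ncard) ∧
      (∀ V, (a.comp b).Supp V →
        ∃ U, (a.comp b).Supp U ∧ U.ncard + 2 * (τ V).ncard ≤ 2 * V.ncard) := by
  obtain ⟨cls, hc, hmin⟩ := exists_cls b a h
  have hba : ∀ G G' f, b.rel G f → a.rel f G' → G = G' := by
    intro G G' f h1 h2
    have : (b.comp a).rel G G' := ⟨f, h1, h2⟩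
    rw [h] at this
    exact this
  have hdisj : ∀ r r' p, p ∈ cls r → p ∈ cls r' → r = r' := by
    intro r r' p hp hp'
    by_contra hne
    exact hmin r _ _ (b.compl (hc r').1) (a.compl (hc r').2) hne hp hp'
  have hne : ∀ r, (cls r).Nonempty := by
    intro r
    rcases (cls r).eq_empty_or_nonempty with h1 | h1
    · have := hba _ _ _ (h1 ▸ (hc r).1) a.empty_rel
      exact absurd this (singleton_ne_empty r)
    · exact h1
  refine ⟨fun V => {r | (cls r ∩ V).Nonempty}, ?_, ?_, ?_⟩
  · intro V x hx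
    constructor
    · rintro r hr G G' ⟨f, h1, f', h2, h3⟩
      have hd : Disjoint (cls r) V := by
        rw [disjoint_iff_inter_eq_empty]; exact not_nonempty_iff_eq_empty.1 hr
      have e : f ∩ cls r = f' ∩ cls r := by
        ext p
        refine ⟨fun hp => ⟨?_, hp.2⟩, fun hp => ⟨?_, hp.2⟩⟩
        · exact (hx.1 p (disjoint_left.1 hd hp.2) f f' h2).1 hp.1
        · exact (hx.1 p (disjoint_left.1 hd hp.2) f f' h2).2 hp.1
      have := hba _ _ _ (b.inter h1 (hc r).1) (e ▸ a.inter h3 (hc r).2)
      have := Set.ext_iff.1 this r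
      simpa using this
    · intro r hr
      have hd : Disjoint (cls r) V := by
        rw [disjoint_iff_inter_eq_empty]; exact not_nonempty_iff_eq_empty.1 hr
      exact ⟨cls r, (hc r).1, cls r, hx.rel_self hd, (hc r).2⟩
  · intro V
    have : ∀ r : {r | (cls r ∩ V).Nonempty}, ∃ p, p ∈ cls r ∧ p ∈ V := fun r => r.2
    choose σ h1 h2 using this
    have hinj : Function.Injective (fun r => (⟨σ r, h2 r⟩ : V)) := by
      intro r r' e
      have e' : σ r = σ r' := congrArg Subtype.val e
      exact Subtype.ext (hdisj _ _ (σ r) (h1 r) (e' ▸ h1 r'))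
    have := Nat.card_le_card_of_injective _ hinj
    simpa [Nat.card_coe_set_eq] using this
  · intro V hV
    have hsing : ∀ p, p ∉ V → ∃ r, cls r = {p} := by
      intro p hp
      obtain ⟨G, h1, h2⟩ := hV.2 p hp
      rcases G.eq_empty_or_nonempty with rfl | ⟨r, hr⟩
      · have := hV.1 p hp {p} ∅ ⟨∅, h1, b.empty_rel⟩
        simp at this
      · refine ⟨r, ?_⟩
        exact (hne r).subset_singleton_iff.1 (hmin r G {p} h2 h1 hr)
    refine ⟨{p | p ∈ V ∧ ¬ ∃ r, cls r = {p}}, ⟨?_, ?_⟩, ?_⟩
    · intro p hp f g hfg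
      have : ∃ r, cls r = {p} := by
        by_cases hpV : p ∈ V
        · by_contra hn; exact hp ⟨hpV, hn⟩
        · exact hsing p hpV
      obtain ⟨r, hr⟩ := this
      have key : ∀ f G g, a.rel f G → b.rel G g → r ∈ G → p ∈ f ∧ p ∈ g := by
        intro f G g h1 h2 h3
        have h4 := a.inter h1 (hc r).2
        have h5 := b.inter h2 (hc r).1
        rw [hr] at h4 h5
        have e : G ∩ {r} = {r} := inter_eq_right.2 (by simpa using h3)
        rw [e] at h4 h5
        constructor
        · by_contra hn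
          rw [inter_singleton_eq_empty.2 hn] at h4
          exact absurd (hba _ _ _ b.empty_rel h4).symm (singleton_ne_empty r)
        · by_contra hn
          rw [inter_singleton_eq_empty.2 hn] at h5
          exact absurd (hba _ _ _ h5 a.empty_rel) (singleton_ne_empty r)
      obtain ⟨G, h1, h2⟩ := hfg
      by_cases hG : r ∈ G
      · have := key f G g h1 h2 hG
        simp [this.1, this.2]
      · have := key _ _ _ (a.compl h1) (b.compl h2) hG
        have h6 : p ∉ f := this.1
        have h7 : p ∉ g := this.2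
        simp [h6, h7]
    · intro p hp
      have : ∃ r, cls r = {p} := by
        by_cases hpV : p ∈ V
        · by_contra hn; exact hp ⟨hpV, hn⟩
        · exact hsing p hpV
      obtain ⟨r, hr⟩ := this
      exact ⟨{r}, hr ▸ (hc r).2, hr ▸ (hc r).1⟩
    · set U : Set P := {p | p ∈ V ∧ ¬ ∃ r, cls r = {p}} with hU
      set T : Set R := {r | (cls r ∩ V).Nonempty} with hT
      have hUV : U ⊆ V := fun p hp => hp.1
      -- an injection from U ⊕ T ⊕ T into V × Bool
      have hT2 : ∀ r : T, ∃ p q, p ∈ cls r ∧ q ∈ cls r ∧ p ∈ V ∧ q ∈ V ∧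
          ((p ∉ U ∧ q ∉ U) ∨ (p ≠ q ∧ p ∈ U ∧ q ∈ U)) := by
        rintro ⟨r, p, hp, hpV⟩
        by_cases hs : cls r = {p}
        · exact ⟨p, p, hp, hp, hpV, hpV, Or.inl ⟨fun h => h.2 ⟨r, hs⟩, fun h => h.2 ⟨r, hs⟩⟩⟩
        · have : ∃ q ∈ cls r, q ≠ p := by
            by_contra hn
            push Not at hn
            exact hs (eq_singleton_iff_unique_mem.2 ⟨hp, hn⟩)
          obtain ⟨q, hq, hqp⟩ := this
          have hU' : ∀ z ∈ cls r, ¬ ∃ r', cls r' = {z} := by
            rintro z hz ⟨r', hr'⟩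
            have e : r = r' := hdisj r r' z hz (hr' ▸ rfl)
            subst e
            rw [hr'] at hp hq
            exact hqp (hq.trans hp.symm)
          have hqV : q ∈ V := by
            by_contra hn
            exact hU' q hq (hsing q hn)
          exact ⟨p, q, hp, hq, hpV, hqV, Or.inr ⟨hqp.symm, ⟨hpV, hU' p hp⟩, ⟨hqV, hU' q hq⟩⟩⟩
      choose σ1 σ2 a1 a2 a3 a4 a5 using hT2
      classical
      let F : U ⊕ (T ⊕ T) → V × Bool := fun z => match z with
        | Sum.inl u => (⟨u.1, hUV u.2⟩, true)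
        | Sum.inr (Sum.inl r) => (⟨σ1 r, a3 r⟩, false)
        | Sum.inr (Sum.inr r) => (⟨σ2 r, a4 r⟩, decide (σ2 r ∉ U))
      have hF : Function.Injective F := by
        rintro (u | r | r) (u' | r' | r') e <;>
          simp only [F, Prod.mk.injEq, Subtype.mk.injEq] at e
        · rw [Subtype.ext e.1]
        · simp at e
        · exfalso
          have := e.2
          simp only [true_eq_decide_iff] at this
          exact this (e.1 ▸ u.2)
        · simp at e
        · rw [Subtype.ext (hdisj _ _ _ (a1 r) (e.1 ▸ a1 r'))]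
        · exfalso
          have e1 : r = r' := Subtype.ext (hdisj _ _ _ (a1 r) (e.1 ▸ a2 r'))
          subst e1
          have h2 := e.2
          simp only [false_eq_decide_iff, not_not] at h2
          rcases a5 r with h3 | h3
          · exact h3.2 h2
          · exact h3.1 e.1
        · exfalso
          have := e.2
          simp only [decide_eq_true_eq] at this
          exact this (e.1 ▸ u'.2)
        · exfalso
          have e1 : r = r' := Subtype.ext (hdisj _ _ _ (a2 r) (e.1 ▸ a1 r'))
          subst e1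
          have h2 := e.2
          simp only [decide_eq_false_iff_not, not_not] at h2
          rcases a5 r with h3 | h3
          · exact h3.2 h2
          · exact h3.1 e.1.symm
        · rw [Subtype.ext (hdisj _ _ _ (a2 r) (e.1 ▸ a2 r'))]
      have := Nat.card_le_card_of_injective F hF
      simp only [Nat.card_sum, Nat.card_prod, Nat.card_coe_set_eq, Nat.card_eq_fintype_card,
        Fintype.card_bool] at this
      change U.ncard + 2 * T.ncard ≤ 2 * V.ncard
      omega

end Dia

end Vale.Agent.P343
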